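import Crest.Agent.Helper65.Switch.Connected

/-!
# S0453, the disjoint-pair positivity (DP): definitions and the summation (helper11)

Graph-level objects of `notes/s0453/PROOF.md`, sections 5-6, for ORDERED distinct vertices
`a b c e` (pair `{a,b}`, disjoint pair `{c,e}`):

* `off U G`     : the edges of `G` not touching `U` (the class key of `~_U`);
* `cls d U G`   : the realizations with the same `off U`;
* `Q d U f`     : the class average (`Q_b` for `U = {a,b}`);
* `free G a b c`: `c` is a free column of the pair `a,b` (exactly one of `ac`, `bc` is an edge);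
* `sep a c e G` : indicator that exactly one of `c`, `e` is adjacent to `a`;
* `ctr G a b c e`, `flip a b c e G`, `Esw d a b c e f` : the switch edges with diagonals `{a,b}`,
  `{c,e}`, each counted once (at its endpoint containing `ac`, `be`);
* `Bad d a b c e f` : `∑_K |K| Cov_K(f, χ_ce)² / π_K` over the classes `K` of `~_{ab}` in which `c`,
  `e` are free, written as a sum over realizations (no sum over classes).

`dp_of_tpl_j2` : (TPL) for all distinct 4-tuples and (J2) for all pairs give (DP).
-/

set_option autoImplicit false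

namespace Crest.Agent.Helper11.SW

open Finset Crest.SwitchChain Crest.Agent.Helper65.Switch

variable {n : ℕ}

/-- The part of `G` not touching `U`. -/
def off (U : Finset (Fin n)) (G : Finset (Edge n)) : Finset (Edge n) :=
  G.filter (fun e => ∀ v ∈ U, v ∉ e.1)

/-- The realizations of `d` having the same edges off `U` as `G`. -/
def cls (d : Fin n → ℕ) (U : Finset (Fin n)) (G : Finset (Edge n)) :
    Finset (Finset (Edge n)) :=
  (realizations d).filter (fun G' => off U G' = off U G)

/-- The class average `E[f | off U]` (uniform measure on `realizations d`). -/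
noncomputable def Q (d : Fin n → ℕ) (U : Finset (Fin n)) (f : Finset (Edge n) → ℝ)
    (G : Finset (Edge n)) : ℝ :=
  (∑ G' ∈ cls d U G, f G') / ((cls d U G).card : ℝ)

/-- `c` is a free column of the pair `a, b` in `G`: exactly one of `ac`, `bc` is an edge. -/
def free (G : Finset (Edge n)) (a b c : Fin n) : Prop := ¬ (adj G a c ↔ adj G b c)

open Classical in
/-- Indicator that exactly one of `c`, `e` is adjacent to `a`. -/
noncomputable def sep (a c e : Fin n) (G : Finset (Edge n)) : ℝ :=
  if (adj G a c ↔ adj G a e) then 0 else 1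

/-- `G` contains `ac`, `be` and not `ae`, `bc`. -/
def ctr (G : Finset (Edge n)) (a b c e : Fin n) : Prop :=
  adj G a c ∧ adj G b e ∧ ¬ adj G a e ∧ ¬ adj G b c

/-- The four slots between `{a,b}` and `{c,e}`. -/
def slots (a b c e : Fin n) : Finset (Edge n) :=
  univ.filter (fun x => (a ∈ x.1 ∨ b ∈ x.1) ∧ (c ∈ x.1 ∨ e ∈ x.1))

/-- Toggle the four slots between `{a,b}` and `{c,e}`. -/
def flip (a b c e : Fin n) (G : Finset (Edge n)) : Finset (Edge n) :=
  symmDiff G (slots a b c e)

open Classical in
/-- Energy of the switch edges with diagonals `{a,b}` and `{c,e}` (each edge once). -/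
noncomputable def Esw (d : Fin n → ℕ) (a b c e : Fin n) (f : Finset (Edge n) → ℝ) : ℝ :=
  ∑ G ∈ realizations d, if ctr G a b c e then (f G - f (flip a b c e G)) ^ 2 else 0

open Classical in
/-- The bad term `∑_K |K| Cov_K(f, χ_ce)² / π_K` over the classes of `~_{ab}` where `c`, `e` are
free columns. -/
noncomputable def Bad (d : Fin n → ℕ) (a b c e : Fin n) (f : Finset (Edge n) → ℝ) : ℝ :=
  ∑ G ∈ realizations d, if free G a b c ∧ free G a b e then
    (Q d {a, b} (fun G' => f G' * sep a c e G') G - Q d {a, b} f G * Q d {a, b} (sep a c e) G) ^ 2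
      / Q d {a, b} (sep a c e) G else 0

/-- Four pairwise distinct vertices. -/
def Dist4 (a b c e : Fin n) : Prop := a ≠ b ∧ a ≠ c ∧ a ≠ e ∧ b ≠ c ∧ b ≠ e ∧ c ≠ e

instance (a b c e : Fin n) : Decidable (Dist4 a b c e) := by unfold Dist4; infer_instance

lemma Dist4.swap {a b c e : Fin n} (h : Dist4 a b c e) : Dist4 c e a b := by
  obtain ⟨h1, h2, h3, h4, h5, h6⟩ := h
  exact ⟨h6, h2.symm, h4.symm, h3.symm, h5.symm, h1⟩

lemma dist4_swap_iff {a b c e : Fin n} : Dist4 c e a b ↔ Dist4 a b c e :=
  ⟨Dist4.swap, Dist4.swap⟩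

/-- The cross term `⟨R_{ab} f, R_{ce} f⟩` (counting inner product on `realizations d`). -/
noncomputable def cross (d : Fin n → ℕ) (a b c e : Fin n) (f : Finset (Edge n) → ℝ) : ℝ :=
  ∑ G ∈ realizations d, (f G - Q d {a, b} f G) * (f G - Q d {c, e} f G)

/-- **(DP) from (TPL) and (J2) on graphs**: pure summation. -/
theorem dp_of_tpl_j2 (d : Fin n → ℕ) (f : Finset (Edge n) → ℝ)
    (htpl : ∀ a b c e : Fin n, Dist4 a b c e →
      Esw d a b c e f - Bad d a b c e f - Bad d c e a b f ≤ 2 * cross d a b c e f)
    (hj2 : ∀ a b : Fin n, a ≠ b →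
      ∑ c : Fin n, ∑ e : Fin n, (if Dist4 a b c e then Bad d a b c e f else 0)
        ≤ (1 / 2) * ∑ c : Fin n, ∑ e : Fin n, (if Dist4 a b c e then Esw d a b c e f else 0)) :
    0 ≤ ∑ a : Fin n, ∑ b : Fin n, ∑ c : Fin n, ∑ e : Fin n,
      (if Dist4 a b c e then cross d a b c e f else 0) := by
  classical
  -- the three four-fold sums
  set SE : ℝ := ∑ a : Fin n, ∑ b : Fin n, ∑ c : Fin n, ∑ e : Fin n,
      (if Dist4 a b c e then Esw d a b c e f else 0) with hSE
  set SB : ℝ := ∑ a : Fin n, ∑ b : Fin n, ∑ c : Fin n, ∑ e : Fin n,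
      (if Dist4 a b c e then Bad d a b c e f else 0) with hSB
  set SB' : ℝ := ∑ a : Fin n, ∑ b : Fin n, ∑ c : Fin n, ∑ e : Fin n,
      (if Dist4 a b c e then Bad d c e a b f else 0) with hSB'
  set SC : ℝ := ∑ a : Fin n, ∑ b : Fin n, ∑ c : Fin n, ∑ e : Fin n,
      (if Dist4 a b c e then cross d a b c e f else 0) with hSC
  -- relabelling
  have hrel : SB' = SB := by
    rw [hSB', hSB]
    have h1 : ∀ a b : Fin n, ∑ c : Fin n, ∑ e : Fin n,
        (if Dist4 a b c e then Bad d c e a b f else 0)
        = ∑ c : Fin n, ∑ e : Fin n, (if Dist4 c e a b then Bad d c e a b f else 0) := by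
      intro a b
      refine Finset.sum_congr rfl (fun c _ => Finset.sum_congr rfl (fun e _ => ?_))
      by_cases h : Dist4 a b c e
      · rw [if_pos h, if_pos h.swap]
      · rw [if_neg h, if_neg (fun h' => h h'.swap)]
    simp_rw [h1]
    -- ∑ a b c e, g c e a b = ∑ a b c e, g a b c e
    calc ∑ a : Fin n, ∑ b : Fin n, ∑ c : Fin n, ∑ e : Fin n,
          (if Dist4 c e a b then Bad d c e a b f else 0)
        = ∑ a : Fin n, ∑ c : Fin n, ∑ b : Fin n, ∑ e : Fin n,
          (if Dist4 c e a b then Bad d c e a b f else 0) := by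
          refine Finset.sum_congr rfl (fun a _ => Finset.sum_comm)
      _ = ∑ c : Fin n, ∑ a : Fin n, ∑ b : Fin n, ∑ e : Fin n,
          (if Dist4 c e a b then Bad d c e a b f else 0) := Finset.sum_comm
      _ = ∑ c : Fin n, ∑ a : Fin n, ∑ e : Fin n, ∑ b : Fin n,
          (if Dist4 c e a b then Bad d c e a b f else 0) := by
          refine Finset.sum_congr rfl (fun c _ => Finset.sum_congr rfl (fun a _ => Finset.sum_comm))
      _ = ∑ c : Fin n, ∑ e : Fin n, ∑ a : Fin n, ∑ b : Fin n,
          (if Dist4 c e a b then Bad d c e a b f else 0) := by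
          refine Finset.sum_congr rfl (fun c _ => Finset.sum_comm)
  -- (TPL) summed
  have h1 : SE - SB - SB' ≤ 2 * SC := by
    rw [hSE, hSB, hSB', hSC, Finset.mul_sum, ← Finset.sum_sub_distrib, ← Finset.sum_sub_distrib]
    refine Finset.sum_le_sum (fun a _ => ?_)
    rw [Finset.mul_sum, ← Finset.sum_sub_distrib, ← Finset.sum_sub_distrib]
    refine Finset.sum_le_sum (fun b _ => ?_)
    rw [Finset.mul_sum, ← Finset.sum_sub_distrib, ← Finset.sum_sub_distrib]
    refine Finset.sum_le_sum (fun c _ => ?_)
    rw [Finset.mul_sum, ← Finset.sum_sub_distrib, ← Finset.sum_sub_distrib]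
    refine Finset.sum_le_sum (fun e _ => ?_)
    by_cases h : Dist4 a b c e
    · simp only [if_pos h]
      exact htpl a b c e h
    · simp only [if_neg h]
      norm_num
  -- (J2) summed
  have h2 : SB ≤ (1 / 2) * SE := by
    rw [hSB, hSE, Finset.mul_sum]
    refine Finset.sum_le_sum (fun a _ => ?_)
    rw [Finset.mul_sum]
    refine Finset.sum_le_sum (fun b _ => ?_)
    by_cases hab : a = b
    · have hz : ∀ (g : Fin n → Fin n → ℝ), ∑ c : Fin n, ∑ e : Fin n,
          (if Dist4 a b c e then g c e else 0) = 0 := by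
        intro g
        refine Finset.sum_eq_zero (fun c _ => Finset.sum_eq_zero (fun e _ => ?_))
        rw [if_neg (fun h => h.1 hab)]
      rw [hz, hz]
      norm_num
    · exact hj2 a b hab
  rw [hrel] at h1
  linarith

end Crest.Agent.Helper11.SW
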